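import Crest.Agent.R187.Soft

/-! Row 187 (S0286): the canonical kernel; reduction of S0286 to one membership. -/

set_option autoImplicit false

namespace Crest.Agent.R187

open MvPolynomial Crest.AlgebraR.FoulkesHowe

section canon

variable {a b n : ℕ}

/-- the pairing `<x_i, y_j>` as a kernel -/
noncomputable def pr (i : Fin a) (j : Fin b) : Ker a b n := ∑ k : Fin n, X (j, k) * C (X (i, k))

theorem pr_wh (i : Fin a) (j j' : Fin b) :
    IsWeightedHomogeneous (blockWeight (n := n) j') (pr i j : Ker a b n) (if j = j' then 1 else 0) := by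
  refine Submodule.sum_mem (weightedHomogeneousSubmodule (MvPolynomial (Var a n) ℂ)
    (blockWeight (n := n) j') (if j = j' then 1 else 0)) (fun k _ => ?_)
  have h1 := (isWeightedHomogeneous_X (MvPolynomial (Var a n) ℂ) (blockWeight (n := n) j') (j, k)).mul
    (isWeightedHomogeneous_C (blockWeight (n := n) j') (X (i, k) : MvPolynomial (Var a n) ℂ))
  rw [add_zero] at h1
  exact h1

theorem rename_pr (σ : Equiv.Perm (Fin b)) (i : Fin a) (j : Fin b) :
    rename (blockPerm σ) (pr i j : Ker a b n) = pr i (σ j) := by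
  simp only [pr, map_sum, map_mul, rename_X, rename_C, blockPerm]

theorem pr_linSubst (g : Matrix (Fin n) (Fin n) ℂ) (i : Fin a) (j : Fin b) :
    map (linSubst a g.transpose).toRingHom (pr i j : Ker a b n) = ysub g (pr i j) := by
  have e1 : map (linSubst a g.transpose).toRingHom (pr i j : Ker a b n)
      = ∑ k : Fin n, ∑ l : Fin n, X (j, k) * (C (C (g l k)) * C (X (i, l))) := by
    rw [pr, map_sum]
    apply Finset.sum_congr rfl
    intro k _
    rw [map_mul, map_X, map_C]
    have : (linSubst a g.transpose).toRingHom (X (i, k)) = ∑ l : Fin n, C (g l k) * X (i, l) := by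
      show linSubst a g.transpose (X (i, k)) = _
      rw [linSubst_X]
      apply Finset.sum_congr rfl
      intro l _
      rw [smul_eq_C_mul, Matrix.transpose_apply]
    rw [this, map_sum, Finset.mul_sum]
    apply Finset.sum_congr rfl
    intro l _
    rw [map_mul]
  have e2 : ysub g (pr i j : Ker a b n)
      = ∑ k : Fin n, ∑ l : Fin n, (C (C (g k l)) * X (j, l)) * C (X (i, k)) := by
    rw [pr, map_sum]
    apply Finset.sum_congr rfl
    intro k _
    rw [map_mul]
    have h2 : ysub g (C (X (i, k)) : Ker a b n) = C (X (i, k)) := (ysub g).commutes _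
    rw [h2, ysub, aeval_X, Finset.sum_mul]
  rw [e1, e2, Finset.sum_comm]
  apply Finset.sum_congr rfl
  intro k _
  apply Finset.sum_congr rfl
  intro l _
  ring

/-- the canonical kernel -/
noncomputable def K0 (a b n : ℕ) : Ker a b n := ∏ j : Fin b, ∏ i : Fin a, pr i j

theorem K0_wh (j' : Fin b) : IsWeightedHomogeneous (blockWeight (n := n) j') (K0 a b n) a := by
  have h := IsWeightedHomogeneous.prod (w := blockWeight (n := n) j') Finset.univ
    (fun j : Fin b => ∏ i : Fin a, (pr i j : Ker a b n)) (fun j => if j = j' then a else 0) (by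
      intro j _
      have h1 := IsWeightedHomogeneous.prod (w := blockWeight (n := n) j') Finset.univ
        (fun i : Fin a => (pr i j : Ker a b n)) (fun _ => if j = j' then 1 else 0)
        (fun i _ => pr_wh i j j')
      convert h1 using 1
      rw [Finset.sum_const, Finset.card_univ, Fintype.card_fin]
      split_ifs <;> simp)
  rw [Finset.sum_ite_eq' Finset.univ j', if_pos (Finset.mem_univ j')] at h
  exact h

theorem K0_rename (σ : Equiv.Perm (Fin b)) : rename (blockPerm σ) (K0 a b n) = K0 a b n := by
  simp only [K0, map_prod, rename_pr]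
  exact Equiv.prod_comp σ (fun j => ∏ i : Fin a, (pr i j : Ker a b n))

theorem K0_linSubst (g : Matrix (Fin n) (Fin n) ℂ) :
    map (linSubst a g.transpose).toRingHom (K0 a b n) = ysub g (K0 a b n) := by
  simp only [K0, map_prod, pr_linSubst]

theorem kev_pr (c : Var b n → ℂ) (i : Fin a) (j : Fin b) :
    kev (pr i j : Ker a b n) c = blk i (∑ k : Fin n, c (j, k) • (X k : P n)) := by
  rw [kev, pr, map_sum, map_sum]
  apply Finset.sum_congr rfl
  intro k _
  rw [map_mul, eval_X, eval_C, map_smul, Algebra.smul_def, blk, rename_X]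

theorem kev_K0 (c : Var b n → ℂ) :
    kev (K0 a b n) c = ∏ j : Fin b, Nm a (∑ k : Fin n, c (j, k) • (X k : P n)) := by
  have h1 : kev (K0 a b n) c = ∏ j : Fin b, ∏ i : Fin a, kev (pr i j : Ker a b n) c := by
    simp only [kev, K0, map_prod]
  rw [h1]
  simp only [kev_pr]
  rfl

theorem mem_H_one {F : P n} (hF : F ∈ H n 1) : ∃ c : Fin n → ℂ, F = ∑ k : Fin n, c k • (X k : P n) := by
  rw [H, homogeneousSubmodule_one_eq_span_X] at hF
  obtain ⟨c, hc⟩ := (Submodule.mem_span_range_iff_exists_fun ℂ).mp hF
  exact ⟨c, hc.symm⟩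

theorem D_pow_le_span : D a n 1 ^ b ≤ Submodule.span ℂ (Set.range (kev (K0 a b n))) := by
  rw [D, Submodule.span_pow, Submodule.span_le]
  intro x hx
  rw [Set.mem_pow] at hx
  obtain ⟨f, rfl⟩ := hx
  apply Submodule.subset_span
  choose F hF hF2 using fun j : Fin b => (f j).2
  choose c hc using fun j : Fin b => mem_H_one (hF j)
  refine ⟨fun v => c v.1 v.2, ?_⟩
  rw [kev_K0, List.prod_ofFn]
  apply Finset.prod_congr rfl
  intro j _
  have := hF2 j
  simp only [pow_one] at this
  rw [← this, hc j]

/-- SOFT PART, canonical map -/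
theorem soft_canon (a b n : ℕ) (h : blockSym a n b ≤ D a n 1 ^ b) :
    ∃ φ : MvPolynomial (Var a n) ℂ →ₗ[ℂ] MvPolynomial (Var b n) ℂ,
      (∀ f ∈ blockSym a n b, φ f ∈ blockSym b n a) ∧
      Set.InjOn φ (blockSym a n b) ∧
      ∀ g : Matrix (Fin n) (Fin n) ℂ, IsUnit g →
        ∀ f ∈ blockSym a n b, φ (linSubst a g f) = linSubst b g (φ f) :=
  soft_kernel (K0 a b n) K0_wh K0_rename K0_linSubst (h.trans D_pow_le_span)

theorem blk_wh' (i j : Fin a) {F : P n} (hF : F ∈ H n b) :
    IsWeightedHomogeneous (blockWeight (n := n) i) (blk j F) (if j = i then b else 0) := by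
  rw [H, mem_homogeneousSubmodule] at hF
  rw [F.as_sum, map_sum]
  refine Submodule.sum_mem (weightedHomogeneousSubmodule ℂ
    (blockWeight (n := n) i) (if j = i then b else 0)) (fun m hm => ?_)
  have h1 := hF (mem_support_iff.mp hm)
  rw [blk, rename_monomial]
  apply isWeightedHomogeneous_monomial
  rw [Finsupp.weight_apply, Finsupp.sum_mapDomain_index (by simp) (by intros; simp [add_mul])]
  rw [Finsupp.weight_apply] at h1
  split_ifs with h2
  · rw [← h1]
    apply Finsupp.sum_congr
    intro k _
    simp [blockWeight, h2]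
  · simp [blockWeight, h2]

theorem R_le_blockSym : R a n b ≤ blockSym a n b := by
  rw [R, Submodule.span_le]
  rintro _ ⟨F, hF, rfl⟩
  show Nm a F ∈ blockSym a n b
  rw [mem_blockSym]
  refine ⟨fun i => ?_, fun σ => act_Nm σ F⟩
  have h := IsWeightedHomogeneous.prod (w := blockWeight (n := n) i) Finset.univ
    (fun j : Fin a => blk j F) (fun j => if j = i then b else 0) (fun j _ => blk_wh' i j hF)
  rw [Finset.sum_ite_eq' Finset.univ i, if_pos (Finset.mem_univ i)] at h
  exact h

theorem R_eq_blockSym : R a n b = blockSym a n b := le_antisymm R_le_blockSym blockSym_le_R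

theorem blockSym_one_le_D : blockSym a n 1 ≤ D a n 1 := by
  refine blockSym_le_R.trans ?_
  rw [R, Submodule.span_le]
  rintro _ ⟨F, hF, rfl⟩
  exact Nm_mem_D hF

theorem blockSym_one_eq_D : blockSym a n 1 = D a n 1 := le_antisymm blockSym_one_le_D D_le_blockSym

/-- propagation (McKay): from degree `b0` to all larger degrees -/
theorem propagate (b0 : ℕ) (hb0 : a ≤ b0 + 1) (h : blockSym a n b0 ≤ D a n 1 ^ b0) (b : ℕ)
    (hb : b0 ≤ b) : blockSym a n b ≤ D a n 1 ^ b := by
  induction b, hb using Nat.le_induction with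
  | base => exact h
  | succ b hb ih =>
    rw [← R_eq_blockSym] at ih ⊢
    refine (stepB n 1 a (b + 1) (by omega)).trans ?_
    rw [Nat.add_sub_cancel, pow_succ']
    exact mul_le_mul' le_rfl ih

end canon

section T

/-- the generator `T_b = ∑_σ ∏_i x_{i, σ i}^b` (n = a) -/
noncomputable def T (a b : ℕ) : SA a a := ∑ σ : Equiv.Perm (Fin a), ∏ i, X (i, σ i) ^ b

/-- substitution of linear forms `w` in all blocks -/
noncomputable def wsub {a n m : ℕ} (w : Fin m → P n) : SA a m →ₐ[ℂ] SA a n :=
  aeval (fun v => blk v.1 (w v.2))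

theorem wsub_blk {a n m : ℕ} (w : Fin m → P n) (i : Fin a) (F : P m) :
    wsub w (blk i F) = blk i (aeval w F) := by
  have : ((wsub (a := a) w).comp (blk i)) = (blk i).comp (aeval w) := by
    ext k
    simp [wsub, blk]
  exact DFunLike.congr_fun this F

theorem wsub_Nm {a n m : ℕ} (w : Fin m → P n) (F : P m) :
    wsub (a := a) w (Nm a F) = Nm a (aeval w F) := by
  simp only [Nm, map_prod, wsub_blk]

theorem wsub_D {a n m k : ℕ} (w : Fin m → P n) (hw : ∀ i, w i ∈ H n 1) {z : SA a m}
    (hz : z ∈ D a m k) : wsub w z ∈ D a n k := by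
  rw [D] at hz
  induction hz using Submodule.span_induction with
  | mem z hz =>
    obtain ⟨F, hF, rfl⟩ := hz
    obtain ⟨c, rfl⟩ := mem_H_one hF
    show wsub w (Nm a _ ^ k) ∈ _
    rw [map_pow, wsub_Nm]
    apply Nm_pow_mem_D
    rw [map_sum]
    apply Submodule.sum_mem
    intro i _
    rw [map_smul, aeval_X]
    exact Submodule.smul_mem _ _ (hw i)
  | zero => rw [map_zero]; exact Submodule.zero_mem _
  | add x y _ _ hx hy => rw [map_add]; exact Submodule.add_mem _ hx hy
  | smul c x _ hx => rw [map_smul]; exact Submodule.smul_mem _ _ hx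

theorem wsub_D_pow {a n m k b : ℕ} (w : Fin m → P n) (hw : ∀ i, w i ∈ H n 1) {z : SA a m}
    (hz : z ∈ D a m k ^ b) : wsub w z ∈ D a n k ^ b := by
  have h1 : (D a m k ^ b).map (wsub (a := a) w).toLinearMap ≤ D a n k ^ b := by
    rw [Submodule.map_pow]
    apply pow_le_pow_left'
    rintro _ ⟨z, hz, rfl⟩
    exact wsub_D w hw hz
  exact h1 ⟨z, hz, rfl⟩

theorem wsub_T {a n b : ℕ} (w : Fin a → P n) :
    wsub w (T a b) = ∑ σ : Equiv.Perm (Fin a), ∏ i, blk i (w (σ i)) ^ b := by
  simp only [T, map_sum, map_prod, map_pow, wsub, aeval_X]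

/-- everything follows from the membership of `T` -/
theorem R_le_of_T {a n b : ℕ} (hT : T a b ∈ D a a 1 ^ b) : R a n b ≤ D a n 1 ^ b := by
  rw [R, Submodule.span_le]
  rintro _ ⟨F, hF, rfl⟩
  show Nm a F ∈ D a n 1 ^ b
  -- the symmetrised products of b-th powers lie in the target
  have key : ∀ w : Fin a → P n, (∀ i, w i ∈ H n 1) →
      Sy a n (∏ i, blk i (w i ^ b)) ∈ D a n 1 ^ b := by
    intro w hw
    have h1 := wsub_D_pow w hw hT
    rw [wsub_T] at h1
    rw [Sy_apply]
    simp only [map_prod, act_blk, map_pow]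
    convert h1 using 1
    rw [← Equiv.sum_comp (Equiv.inv (Equiv.Perm (Fin a)))]
    apply Finset.sum_congr rfl
    intro σ _
    rw [← Equiv.prod_comp σ]
    apply Finset.prod_congr rfl
    intro i _
    simp
  -- multilinear extension
  have h2 : ∀ Fs : Fin a → P n, (∀ i, Fs i ∈ H n b) →
      Sy a n (∏ i, blk i (Fs i)) ∈ D a n 1 ^ b := by
    intro Fs hFs
    have h3 : ∀ s : Finset (Fin a), ∀ Gs : Fin a → P n,
        (∀ i, i ∈ s → Gs i ∈ H n b) → (∀ i, i ∉ s → ∃ w ∈ H n 1, Gs i = w ^ b) →
        Sy a n (∏ i, blk i (Gs i)) ∈ D a n 1 ^ b := by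
      classical
      intro s
      induction s using Finset.induction_on with
      | empty =>
        intro Gs _ h5
        choose w hw hw2 using fun i => h5 i (Finset.notMem_empty i)
        simp only [hw2]
        exact key w hw
      | insert j s hj ih =>
        intro Gs h4 h5
        have h6 : ∀ G ∈ Submodule.span ℂ ((fun w : P n => w ^ b) '' (H n 1 : Set (P n))),
            Sy a n (∏ i, blk i (Function.update Gs j G i)) ∈ D a n 1 ^ b := by
          intro G hG
          have hupd : ∀ G : P n, ∏ i, blk (a := a) i (Function.update Gs j G i)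
              = blk j G * ∏ i ∈ Finset.univ.erase j, blk i (Gs i) := by
            intro G
            rw [← Finset.mul_prod_erase Finset.univ _ (Finset.mem_univ j)]
            congr 1
            · rw [Function.update_self]
            · apply Finset.prod_congr rfl
              intro i hi
              rw [Function.update_of_ne (Finset.ne_of_mem_erase hi)]
          induction hG using Submodule.span_induction with
          | mem G hG =>
            obtain ⟨w, hw, rfl⟩ := hG
            apply ih
            · intro i hi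
              have hij : i ≠ j := fun h => hj (h ▸ hi)
              rw [Function.update_of_ne hij]
              exact h4 i (Finset.mem_insert_of_mem hi)
            · intro i hi
              by_cases hij : i = j
              · subst hij
                exact ⟨w, hw, by rw [Function.update_self]⟩
              · rw [Function.update_of_ne hij]
                exact h5 i (by simp [hij, hi])
          | zero => rw [hupd, map_zero, zero_mul, map_zero]; exact Submodule.zero_mem _
          | add x y _ _ hx hy =>
            rw [hupd] at hx hy ⊢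
            rw [map_add, add_mul, map_add]; exact Submodule.add_mem _ hx hy
          | smul c x _ hx =>
            rw [hupd] at hx ⊢
            rw [map_smul, smul_mul_assoc, map_smul]; exact Submodule.smul_mem _ _ hx
        have h7 := h6 (Gs j) (H_le_span_pow n b (h4 j (Finset.mem_insert_self j s)))
        rwa [Function.update_eq_self] at h7
    exact h3 Finset.univ Fs (fun i _ => hFs i) (fun i hi => absurd (Finset.mem_univ i) hi)
  have h8 := h2 (fun _ => F) (fun _ => hF)
  have h9 : Sy a n (∏ i, blk i F) = (Nat.factorial a : ℂ) • Nm a F := by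
    rw [← Sy_of_Inv (Nm_mem_Inv F)]; rfl
  rw [h9] at h8
  have h10 : (Nat.factorial a : ℂ) ≠ 0 := by exact_mod_cast Nat.factorial_ne_zero a
  have h11 := Submodule.smul_mem (D a n 1 ^ b) ((Nat.factorial a : ℂ)⁻¹) h8
  rwa [smul_smul, inv_mul_cancel₀ h10, one_smul] at h11

/-- S0286 from the single membership `T 6 7 ∈ D_1^7`. -/
theorem final_of_T (hT : T 6 7 ∈ D 6 6 1 ^ 7) (n b : ℕ) (hb : 6 ≤ b) :
    ∃ φ : MvPolynomial (Var 6 n) ℂ →ₗ[ℂ] MvPolynomial (Var b n) ℂ,
      (∀ f ∈ blockSym 6 n b, φ f ∈ blockSym b n 6) ∧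
      Set.InjOn φ (blockSym 6 n b) ∧
      ∀ g : Matrix (Fin n) (Fin n) ℂ, IsUnit g →
        ∀ f ∈ blockSym 6 n b, φ (linSubst 6 g f) = linSubst b g (φ f) := by
  rcases Nat.eq_or_lt_of_le hb with rfl | hb
  · exact ⟨LinearMap.id, fun f hf => hf, fun x _ y _ h => h, fun g _ f _ => rfl⟩
  · apply soft_canon
    exact propagate 7 (by norm_num) (blockSym_le_R.trans (R_le_of_T hT)) b hb

end T

end Crest.Agent.R187
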