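import Crest.Agent.R187.Final

/-! Row 187 (S0286): the soft part.  Fischer pairing, kernels, equivariant injections. -/

set_option autoImplicit false

namespace Crest.Agent.R187

open MvPolynomial Crest.AlgebraR.FoulkesHowe

section Fischer

variable {σ : Type*} [Fintype σ]

/-- factorial of an exponent -/
def mfac (m : σ →₀ ℕ) : ℕ := ∏ i, (m i).factorial

theorem mfac_pos (m : σ →₀ ℕ) : 0 < mfac m := Finset.prod_pos (fun _ _ => Nat.factorial_pos _)

theorem mfac_add_single (m : σ →₀ ℕ) (i : σ) :
    mfac (m + Finsupp.single i 1) = (m i + 1) * mfac m := by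
  classical
  unfold mfac
  rw [← Finset.mul_prod_erase Finset.univ _ (Finset.mem_univ i),
    ← Finset.mul_prod_erase Finset.univ (fun j => (m j).factorial) (Finset.mem_univ i),
    ← mul_assoc]
  congr 1
  · simp [Nat.factorial_succ]
  · apply Finset.prod_congr rfl
    intro j hj
    rw [Finset.mem_erase] at hj
    simp [hj.1.symm]

/-- the Fischer pairing `<f, h> = ∑ α, α! f_α h_α` -/
noncomputable def fis : MvPolynomial σ ℂ →ₗ[ℂ] MvPolynomial σ ℂ →ₗ[ℂ] ℂ :=
  (basisMonomials σ ℂ).constr ℂ (fun m => (mfac m : ℂ) • lcoeff ℂ m)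

theorem fis_monomial (m : σ →₀ ℕ) (c : ℂ) (h : MvPolynomial σ ℂ) :
    fis (monomial m c) h = c * (mfac m * coeff m h) := by
  have h1 : (monomial m c : MvPolynomial σ ℂ) = c • basisMonomials σ ℂ m := by
    rw [coe_basisMonomials, smul_monomial, smul_eq_mul, mul_one]
  rw [h1, map_smul, fis, Module.Basis.constr_basis]
  simp [lcoeff]

theorem fis_eq_sum (f h : MvPolynomial σ ℂ) :
    fis f h = ∑ m ∈ f.support, coeff m f * (mfac m * coeff m h) := by
  conv_lhs => rw [← support_sum_monomial_coeff f]
  rw [map_sum, LinearMap.sum_apply]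
  exact Finset.sum_congr rfl (fun m _ => fis_monomial m _ h)

theorem fis_mul_X (i : σ) (f h : MvPolynomial σ ℂ) :
    fis (f * X i) h = fis f (pderiv i h) := by
  induction f using MvPolynomial.induction_on' with
  | add p q hp hq => rw [add_mul, map_add, map_add, LinearMap.add_apply, LinearMap.add_apply, hp, hq]
  | monomial m c =>
    rw [X, monomial_mul, mul_one, fis_monomial, fis_monomial, mfac_add_single, coeff_pderiv]
    push_cast
    ring

theorem fis_C (c : ℂ) (h : MvPolynomial σ ℂ) : fis (C c) h = c * constantCoeff h := by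
  rw [← monomial_zero', fis_monomial, constantCoeff_eq]
  simp [mfac]

/-- positivity -/
theorem fis_self_conj {f : MvPolynomial σ ℂ} (hf : fis f (map (starRingEnd ℂ) f) = 0) : f = 0 := by
  rw [fis_eq_sum] at hf
  have h1 : ∑ m ∈ f.support, coeff m f * (mfac m * coeff m (map (starRingEnd ℂ) f))
      = ((∑ m ∈ f.support, (mfac m : ℝ) * Complex.normSq (coeff m f) : ℝ) : ℂ) := by
    push_cast
    apply Finset.sum_congr rfl
    intro m _
    rw [coeff_map, Complex.normSq_eq_conj_mul_self]
    ring
  rw [h1] at hf
  have h2 : (∑ m ∈ f.support, (mfac m : ℝ) * Complex.normSq (coeff m f) : ℝ) = 0 := by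
    exact_mod_cast hf
  rw [Finset.sum_eq_zero_iff_of_nonneg] at h2
  · ext m
    rw [coeff_zero]
    by_contra hm
    have h3 := h2 m (mem_support_iff.mpr hm)
    rcases mul_eq_zero.mp h3 with h4 | h4
    · have := mfac_pos m
      have h5 : (mfac m : ℝ) ≠ 0 := by positivity
      exact h5 h4
    · exact hm (Complex.normSq_eq_zero.mp h4)
  · intro m _
    exact mul_nonneg (Nat.cast_nonneg _) (Complex.normSq_nonneg _)

end Fischer

section adj

theorem linSubst_X {a n : ℕ} (g : Matrix (Fin n) (Fin n) ℂ) (v : Var a n) :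
    linSubst a g (X v) = ∑ l : Fin n, g v.2 l • X (v.1, l) := by
  rw [linSubst, aeval_X]

theorem constantCoeff_linSubst {a n : ℕ} (g : Matrix (Fin n) (Fin n) ℂ)
    (h : MvPolynomial (Var a n) ℂ) : constantCoeff (linSubst a g h) = constantCoeff h := by
  induction h using MvPolynomial.induction_on with
  | C c => rw [← algebraMap_eq, AlgHom.commutes]
  | add p q hp hq => rw [map_add, map_add, map_add, hp, hq]
  | mul_X p i hp =>
    rw [map_mul, map_mul, map_mul, hp, linSubst_X, map_sum]
    have : ∀ l : Fin n, constantCoeff (g i.2 l • (X (i.1, l) : MvPolynomial (Var a n) ℂ)) = 0 := by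
      intro l
      rw [smul_eq_C_mul, map_mul, constantCoeff_X, mul_zero]
    simp [this]

theorem pderiv_linSubst {a n : ℕ} (g : Matrix (Fin n) (Fin n) ℂ) (v : Var a n)
    (h : MvPolynomial (Var a n) ℂ) :
    pderiv v (linSubst a g.transpose h) = ∑ l : Fin n, g v.2 l • linSubst a g.transpose (pderiv (v.1, l) h) := by
  classical
  induction h using MvPolynomial.induction_on with
  | C c =>
    rw [← algebraMap_eq, AlgHom.commutes]
    simp [algebraMap_eq]
  | add p q hp hq =>
    simp only [map_add, hp, hq, smul_add, Finset.sum_add_distrib]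
  | mul_X p w hp =>
    rw [map_mul, pderiv_mul, hp]
    simp only [pderiv_mul, map_add, map_mul, smul_add, Finset.sum_add_distrib, Finset.sum_mul,
      smul_mul_assoc]
    congr 1
    have h1 : pderiv v (linSubst a g.transpose (X w))
        = if v.1 = w.1 then C (g v.2 w.2) else 0 := by
      rw [linSubst_X, map_sum]
      simp only [Derivation.map_smul, pderiv_X]
      split_ifs with h
      · rw [Finset.sum_eq_single v.2]
        · have : (w.1, v.2) = v := by rw [← h]
          rw [this, Pi.single_eq_same, Matrix.transpose_apply, smul_eq_C_mul, mul_one]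
        · intro l _ hl
          rw [Pi.single_eq_of_ne, smul_zero]
          intro h2
          exact hl (congrArg Prod.snd h2)
        · intro h2; exact absurd (Finset.mem_univ _) h2
      · apply Finset.sum_eq_zero
        intro l _
        rw [Pi.single_eq_of_ne, smul_zero]
        intro h2
        exact h (congrArg Prod.fst h2).symm
    rw [h1]
    have h2 : ∀ l : Fin n, linSubst a g.transpose (pderiv (v.1, l) (X w : MvPolynomial (Var a n) ℂ))
        = if v.1 = w.1 ∧ l = w.2 then 1 else 0 := by
      intro l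
      rw [pderiv_X]
      by_cases h3 : v.1 = w.1 ∧ l = w.2
      · rw [if_pos h3]
        have : (v.1, l) = w := by rw [h3.1, h3.2]
        rw [this, Pi.single_eq_same, map_one]
      · rw [if_neg h3, Pi.single_eq_of_ne, map_zero]
        intro h4
        apply h3
        rw [h4]
        exact ⟨rfl, rfl⟩
    simp only [h2]
    by_cases h5 : v.1 = w.1
    · simp only [h5, true_and, if_true]
      rw [Finset.sum_eq_single w.2]
      · rw [if_pos rfl, mul_one, smul_eq_C_mul, mul_comm]
      · intro l _ hl; rw [if_neg hl, mul_zero, smul_zero]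
      · intro h2; exact absurd (Finset.mem_univ _) h2
    · simp [h5]

/-- the adjoint of a linear substitution is the transposed one -/
theorem fis_linSubst {a n : ℕ} (g : Matrix (Fin n) (Fin n) ℂ) (f h : MvPolynomial (Var a n) ℂ) :
    fis (linSubst a g f) h = fis f (linSubst a g.transpose h) := by
  induction f using MvPolynomial.induction_on generalizing h with
  | C c => rw [← algebraMap_eq, AlgHom.commutes, algebraMap_eq, fis_C, fis_C, constantCoeff_linSubst]
  | add p q hp hq => rw [map_add, map_add, map_add, LinearMap.add_apply, LinearMap.add_apply, hp, hq]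
  | mul_X p v hp =>
    rw [map_mul, linSubst_X, Finset.mul_sum, map_sum, LinearMap.sum_apply, fis_mul_X,
      pderiv_linSubst, map_sum]
    apply Finset.sum_congr rfl
    intro l _
    rw [mul_smul_comm, map_smul, LinearMap.smul_apply, fis_mul_X, hp, map_smul]

end adj

section kernel

variable {a b n : ℕ}

/-- kernels: polynomials in y (b blocks) with coefficients polynomials in x (a blocks) -/
abbrev Ker (a b n : ℕ) : Type := MvPolynomial (Var b n) (MvPolynomial (Var a n) ℂ)

/-- the map given by a kernel -/
noncomputable def kmap (K : Ker a b n) : MvPolynomial (Var a n) ℂ →ₗ[ℂ] MvPolynomial (Var b n) ℂ :=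
  ∑ β ∈ K.support, (monomial β : ℂ →ₗ[ℂ] MvPolynomial (Var b n) ℂ) ∘ₗ (fis.flip (coeff β K))

theorem coeff_kmap (K : Ker a b n) (f : MvPolynomial (Var a n) ℂ) (β : Var b n →₀ ℕ) :
    coeff β (kmap K f) = fis f (coeff β K) := by
  classical
  rw [kmap, LinearMap.sum_apply, coeff_sum]
  simp only [LinearMap.comp_apply, LinearMap.flip_apply, coeff_monomial]
  rw [Finset.sum_ite_eq' K.support β]
  split_ifs with h
  · rfl
  · rw [notMem_support_iff.mp h, map_zero]

/-- linear functional applied to the coefficients of a product kernel -/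
theorem kmap_C_mul (s : MvPolynomial (Var a n) ℂ) (p : MvPolynomial (Var b n) ℂ)
    (f : MvPolynomial (Var a n) ℂ) :
    kmap (C s * map (algebraMap ℂ (MvPolynomial (Var a n) ℂ)) p) f = fis f s • p := by
  ext β
  rw [coeff_kmap, coeff_C_mul, coeff_map, coeff_smul, mul_comm, ← Algebra.smul_def, map_smul,
    smul_eq_mul, smul_eq_mul, mul_comm]

theorem kmap_add (K L : Ker a b n) (f : MvPolynomial (Var a n) ℂ) :
    kmap (K + L) f = kmap K f + kmap L f := by
  ext β
  rw [coeff_add, coeff_kmap, coeff_kmap, coeff_kmap, coeff_add, map_add]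

/-- substitution in the y variables of a kernel -/
noncomputable def ysub (g : Matrix (Fin n) (Fin n) ℂ) : Ker a b n →ₐ[MvPolynomial (Var a n) ℂ] Ker a b n :=
  aeval fun v => ∑ l : Fin n, C (C (g v.2 l)) * X (v.1, l)

theorem ysub_map (g : Matrix (Fin n) (Fin n) ℂ) (p : MvPolynomial (Var b n) ℂ) :
    ysub (a := a) g (map (algebraMap ℂ (MvPolynomial (Var a n) ℂ)) p)
      = map (algebraMap ℂ (MvPolynomial (Var a n) ℂ)) (linSubst b g p) := by
  induction p using MvPolynomial.induction_on with
  | C c =>
    have h0 : linSubst b g (C c) = C c := (linSubst b g).commutes c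
    rw [h0, map_C]
    exact (ysub (a := a) g).commutes _
  | add p q hp hq => simp only [map_add, hp, hq]
  | mul_X p w hp =>
    rw [map_mul, map_mul, map_mul, hp, map_mul, map_X, ysub, aeval_X, linSubst_X, map_sum]
    congr 1
    apply Finset.sum_congr rfl
    intro l _
    rw [smul_eq_C_mul, map_mul, map_C, map_X]
    rfl

theorem kmap_ysub (g : Matrix (Fin n) (Fin n) ℂ) (K : Ker a b n) (f : MvPolynomial (Var a n) ℂ) :
    kmap (ysub g K) f = linSubst b g (kmap K f) := by
  induction K using MvPolynomial.induction_on' with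
  | add p q hp hq => rw [map_add, kmap_add, kmap_add, map_add, hp, hq]
  | monomial m s =>
    have h1 : (monomial m s : Ker a b n)
        = C s * map (algebraMap ℂ (MvPolynomial (Var a n) ℂ)) (monomial m 1) := by
      rw [map_monomial, map_one, C_mul_monomial, mul_one]
    rw [h1, map_mul, ysub_map, kmap_C_mul, map_smul]
    have h2 : ysub g (C s : Ker a b n) = C s := by
      rw [← algebraMap_eq, AlgHom.commutes]
    rw [h2, kmap_C_mul]

theorem kmap_linSubst (g : Matrix (Fin n) (Fin n) ℂ) (K : Ker a b n)
    (hK : map (linSubst a g.transpose).toRingHom K = ysub g K) (f : MvPolynomial (Var a n) ℂ) :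
    kmap K (linSubst a g f) = linSubst b g (kmap K f) := by
  rw [← kmap_ysub, ← hK]
  ext β
  rw [coeff_kmap, coeff_kmap, coeff_map, fis_linSubst]
  rfl

theorem kmap_blockSym (K : Ker a b n)
    (h1 : ∀ i : Fin b, IsWeightedHomogeneous (blockWeight (n := n) i) K a)
    (h2 : ∀ σ : Equiv.Perm (Fin b), rename (blockPerm σ) K = K) (f : MvPolynomial (Var a n) ℂ) :
    kmap K f ∈ blockSym b n a := by
  rw [mem_blockSym]
  refine ⟨fun i β hβ => h1 i (d := β) ?_, fun σ => ?_⟩
  · intro h0
    apply hβ
    rw [coeff_kmap, h0, map_zero]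
  · have hinj : Function.Injective (blockPerm (n := n) σ) := by
      rintro ⟨i, k⟩ ⟨j, l⟩ h
      simp only [blockPerm, Prod.mk.injEq, EmbeddingLike.apply_eq_iff_eq] at h
      exact Prod.ext h.1 h.2
    have hsurj : Function.Surjective (blockPerm (n := n) σ) := by
      rintro ⟨i, k⟩
      exact ⟨(σ.symm i, k), by simp [blockPerm]⟩
    ext β
    obtain ⟨γ, rfl⟩ : ∃ γ, Finsupp.mapDomain (blockPerm (n := n) σ) γ = β :=
      Finsupp.mapDomain_surjective hsurj β
    rw [act, coeff_rename_mapDomain _ hinj, coeff_kmap, coeff_kmap]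
    conv_rhs => rw [← h2 σ]
    rw [coeff_rename_mapDomain _ hinj]

/-- value of the kernel at a point y = c -/
noncomputable def kev (K : Ker a b n) (c : Var b n → ℂ) : MvPolynomial (Var a n) ℂ :=
  eval (fun v => algebraMap ℂ (MvPolynomial (Var a n) ℂ) (c v)) K

theorem fis_kev {K : Ker a b n} {f : MvPolynomial (Var a n) ℂ} (hf : kmap K f = 0)
    (c : Var b n → ℂ) : fis f (kev K c) = 0 := by
  rw [kev, eval_eq, map_sum]
  apply Finset.sum_eq_zero
  intro β _
  have : ∏ i ∈ β.support, (algebraMap ℂ (MvPolynomial (Var a n) ℂ) (c i)) ^ β i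
        = algebraMap ℂ (MvPolynomial (Var a n) ℂ) (∏ i ∈ β.support, c i ^ β i) := by
    rw [map_prod]; simp only [map_pow]
  rw [this, ← Algebra.commutes, ← Algebra.smul_def, map_smul, ← coeff_kmap, hf, coeff_zero, smul_zero]

/-- blockSym is stable under complex conjugation -/
theorem conj_blockSym {f : MvPolynomial (Var a n) ℂ} (hf : f ∈ blockSym a n b) :
    map (starRingEnd ℂ) f ∈ blockSym a n b := by
  rw [mem_blockSym] at hf ⊢
  refine ⟨fun i β hβ => hf.1 i (d := β) ?_, fun σ => ?_⟩
  · intro h0
    apply hβ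
    rw [coeff_map, h0, map_zero]
  · have := hf.2 σ
    rw [act] at this ⊢
    conv_rhs => rw [← this]
    rw [map_rename]

/-- General form of the soft part: a kernel which is equivariant, block symmetric and
multihomogeneous in `y`, and whose values span `blockSym a n b`, gives an equivariant injection. -/
theorem soft_kernel (K : Ker a b n)
    (h1 : ∀ i : Fin b, IsWeightedHomogeneous (blockWeight (n := n) i) K a)
    (h2 : ∀ σ : Equiv.Perm (Fin b), rename (blockPerm σ) K = K)
    (h3 : ∀ g : Matrix (Fin n) (Fin n) ℂ, map (linSubst a g.transpose).toRingHom K = ysub g K)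
    (h4 : blockSym a n b ≤ Submodule.span ℂ (Set.range (kev K))) :
    ∃ φ : MvPolynomial (Var a n) ℂ →ₗ[ℂ] MvPolynomial (Var b n) ℂ,
      (∀ f ∈ blockSym a n b, φ f ∈ blockSym b n a) ∧
      Set.InjOn φ (blockSym a n b) ∧
      ∀ g : Matrix (Fin n) (Fin n) ℂ, IsUnit g →
        ∀ f ∈ blockSym a n b, φ (linSubst a g f) = linSubst b g (φ f) := by
  refine ⟨kmap K, fun f _ => kmap_blockSym K h1 h2 f, ?_, fun g _ f _ => kmap_linSubst g K (h3 g) f⟩
  have key : ∀ f ∈ blockSym a n b, kmap K f = 0 → f = 0 := by
    intro f hf h0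
    apply fis_self_conj
    have h5 : ∀ u ∈ Submodule.span ℂ (Set.range (kev K)), fis f u = 0 := by
      intro u hu
      induction hu using Submodule.span_induction with
      | mem u hu => obtain ⟨c, rfl⟩ := hu; exact fis_kev h0 c
      | zero => rw [map_zero]
      | add x y _ _ hx hy => rw [map_add, hx, hy, add_zero]
      | smul c x _ hx => rw [map_smul, hx, smul_zero]
    exact h5 _ (h4 (conj_blockSym hf))
  intro f hf g hg hfg
  rw [← sub_eq_zero]
  apply key _ (Submodule.sub_mem _ hf hg)
  rw [map_sub, sub_eq_zero]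
  exact hfg

end kernel

end Crest.Agent.R187
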